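import Vale.Agent.P299.H800.D5.Closure
import Vale.Agent.P271.H408.Weyl
import Mathlib.Analysis.Calculus.BumpFunction.Normed
import Mathlib.Analysis.Calculus.BumpFunction.FiniteDimension
import Mathlib.Analysis.Calculus.ContDiff.Convolution
import Mathlib.Analysis.Calculus.InverseFunctionTheorem.ContDiff

/-!
# P299, D5 (vi): a continuous action of `ℝ^r` by holomorphic maps is jointly smooth

Local form: `F t u` is jointly continuous, holomorphic in `u`, `F 0 u = u` and
`F s (F t u) = F (s + t) u`. Mollification in `t` and in `u` gives `Φ (F t u) = G (t, u)` with smooth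
`Φ`, `G` and `Φ` a local diffeomorphism.
-/

open MeasureTheory Filter Topology Metric Set
open scoped ContDiff Convolution Manifold
open Vale.Agent.P272.K Vale.Agent.P271.H408

noncomputable section

namespace Vale.Agent.P299.H800.D5

theorem haarI (r n : ℕ) : (volume : Measure ((Fin r → ℝ) × Cm n)).IsAddHaarMeasure :=
  Measure.prod.instIsAddHaarMeasure volume volume

attribute [local instance] haarI

theorem negI (r n : ℕ) : (volume : Measure ((Fin r → ℝ) × Cm n)).IsNegInvariant := by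
  have h : (volume : Measure ((Fin r → ℝ) × Cm n)).Regular :=
    Measure.Regular.of_sigmaCompactSpace_of_isLocallyFiniteMeasure _
  exact Measure.IsAddHaarMeasure.isNegInvariant_of_regular _

attribute [local instance] negI

/-- the normalised circled mollifier -/
def eta (n : ℕ) (σ : ℝ) (v : Cm n) : ℝ := (∫ v, molR n σ v)⁻¹ * molR n σ v

section eta
variable {n : ℕ} {σ : ℝ}

theorem eta_contDiff : ContDiff ℝ ∞ (eta n σ) := contDiff_const.mul (molR_contDiff σ)

theorem eta_support (hσ : 0 < σ) {v : Cm n} (hv : v ∉ closedBall (0 : Cm n) σ) : eta n σ v = 0 := by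
  unfold eta
  rw [image_eq_zero_of_notMem_tsupport fun h => hv (molR_tsupport hσ h), mul_zero]

theorem eta_tsupport (hσ : 0 < σ) : tsupport (eta n σ) ⊆ closedBall 0 σ :=
  closure_minimal (fun v hv => by
    by_contra h
    exact hv (eta_support hσ h)) isClosed_closedBall

theorem eta_hasCompactSupport (hσ : 0 < σ) : HasCompactSupport (eta n σ) :=
  HasCompactSupport.of_support_subset_isCompact (isCompact_closedBall 0 σ)
    ((subset_tsupport _).trans (eta_tsupport hσ))

theorem eta_circ (c : ℂ) (v : Cm n) (hc : ‖c‖ = 1) : eta n σ (c • v) = eta n σ v := by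
  unfold eta
  rw [molR_circ σ c v hc]

theorem integral_eta (hσ : 0 < σ) : ∫ v, eta n σ v = 1 := by
  unfold eta
  rw [integral_const_mul, inv_mul_cancel₀ (molR_pos hσ).ne']

/-- mean value property -/
theorem eta_mean {F : Type*} [NormedAddCommGroup F] [NormedSpace ℂ F] [CompleteSpace F]
    {f : Cm n → F} {u : Cm n} {R : ℝ} (hσ : 0 < σ) (hR : σ < R)
    (hf : DifferentiableOn ℂ f (ball u R)) : ∫ v, eta n σ v • f (u - v) = f u := by
  have h1 : DifferentiableOn ℂ (fun v => f (u - v)) (ball (0 : Cm n) R) := by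
    refine hf.comp (by fun_prop) fun v hv => ?_
    rw [mem_ball_zero_iff] at hv
    rw [mem_ball, dist_eq_norm, sub_sub_cancel_left, norm_neg]
    exact hv
  have h2 := integral_circled h1 (eta_contDiff (n := n) (σ := σ)).continuous
    (eta_hasCompactSupport hσ) ((eta_tsupport hσ).trans (closedBall_subset_ball hR)) eta_circ
  rw [h2, integral_eta hσ, one_smul, sub_zero]

end eta

section core

variable {r n : ℕ} {F : (Fin r → ℝ) → Cm n → Cm n} {c : Cm n} {T ρ : ℝ}

/-- the extension by zero used in the convolution -/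
def cut (F : (Fin r → ℝ) → Cm n → Cm n) (c : Cm n) (δ ρ : ℝ) (q : (Fin r → ℝ) × Cm n) : Cm n :=
  (closedBall (0 : Fin r → ℝ) (2 * δ) ×ˢ closedBall c (3 * ρ / 4)).indicator
    (fun q => F q.1 q.2) q

theorem integrable_cut (hF : ContinuousOn (fun q : (Fin r → ℝ) × Cm n => F q.1 q.2)
    (ball 0 T ×ˢ ball c ρ)) {δ : ℝ} (hδ : 2 * δ < T) (hρ : 0 < ρ) :
    Integrable (cut F c δ ρ) (volume : Measure ((Fin r → ℝ) × Cm n)) := by
  have hA : IsCompact (closedBall (0 : Fin r → ℝ) (2 * δ) ×ˢ closedBall c (3 * ρ / 4)) :=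
    (isCompact_closedBall _ _).prod (isCompact_closedBall _ _)
  have h1 : ContinuousOn (fun q : (Fin r → ℝ) × Cm n => F q.1 q.2)
      (closedBall (0 : Fin r → ℝ) (2 * δ) ×ˢ closedBall c (3 * ρ / 4)) :=
    hF.mono (prod_mono (closedBall_subset_ball hδ) (closedBall_subset_ball (by linarith)))
  unfold cut
  rw [integrable_indicator_iff hA.measurableSet]
  exact h1.integrableOn_compact hA

/-- the kernel -/
def ker (χ : (Fin r → ℝ) → ℝ) (n : ℕ) (σ : ℝ) (q : (Fin r → ℝ) × Cm n) : ℝ := χ q.1 * eta n σ q.2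

theorem ker_contDiff {χ : (Fin r → ℝ) → ℝ} (hχ : ContDiff ℝ ∞ χ) (σ : ℝ) :
    ContDiff ℝ ∞ (ker χ n σ) :=
  (hχ.comp contDiff_fst).mul ((eta_contDiff (n := n) (σ := σ)).comp contDiff_snd)

theorem ker_hasCompactSupport {χ : (Fin r → ℝ) → ℝ} {δ σ : ℝ}
    (hχs : ∀ s, s ∉ closedBall (0 : Fin r → ℝ) δ → χ s = 0) (hσ : 0 < σ) :
    HasCompactSupport (ker χ n σ) := by
  refine HasCompactSupport.of_support_subset_isCompact
    ((isCompact_closedBall (0 : Fin r → ℝ) δ).prod (isCompact_closedBall (0 : Cm n) σ)) ?_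
  rintro ⟨s, v⟩ hq
  constructor
  · by_contra h
    exact hq (by unfold ker; rw [hχs s h, zero_mul])
  · by_contra h
    exact hq (by unfold ker; rw [eta_support hσ h, mul_zero])

/-- The convolution computed by the mean value property. -/
theorem conv_eq (hF : ContinuousOn (fun q : (Fin r → ℝ) × Cm n => F q.1 q.2)
    (ball 0 T ×ˢ ball c ρ)) (hd : ∀ t ∈ ball (0 : Fin r → ℝ) T, DifferentiableOn ℂ (F t) (ball c ρ))
    {δ : ℝ} (hδ : 2 * δ < T) (hρ : 0 < ρ) {χ : (Fin r → ℝ) → ℝ} (hχ : ContDiff ℝ ∞ χ)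
    (hχs : ∀ s, s ∉ closedBall (0 : Fin r → ℝ) δ → χ s = 0) {t : Fin r → ℝ} (ht : ‖t‖ ≤ δ)
    {u : Cm n} (hu : u ∈ ball c (ρ / 2)) :
    (ker χ n (ρ / 4) ⋆[ContinuousLinearMap.lsmul ℝ ℝ, volume] cut F c δ ρ) (t, u) =
      ∫ s, χ s • F (t - s) u := by
  have hσ : 0 < ρ / 4 := by positivity
  have hint := (ker_hasCompactSupport (n := n) hχs hσ).convolutionExists_left
    (ContinuousLinearMap.lsmul ℝ ℝ) (μ := volume) (ker_contDiff hχ (ρ / 4)).continuous
    (integrable_cut hF hδ hρ).locallyIntegrable (t, u)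
  rw [convolution_def]
  have hint' : Integrable (fun q : (Fin r → ℝ) × Cm n =>
      ker χ n (ρ / 4) q • cut F c δ ρ ((t, u) - q)) (volume.prod volume) := hint
  have h0 : ∀ q : (Fin r → ℝ) × Cm n, (ContinuousLinearMap.lsmul ℝ ℝ) (ker χ n (ρ / 4) q)
      (cut F c δ ρ ((t, u) - q)) = ker χ n (ρ / 4) q • cut F c δ ρ ((t, u) - q) := fun q => rfl
  simp only [h0]
  rw [Measure.volume_eq_prod, integral_prod _ hint']
  refine integral_congr_ae (Eventually.of_forall fun s => ?_)
  show ∫ v, ker χ n (ρ / 4) (s, v) • cut F c δ ρ ((t, u) - (s, v)) = χ s • F (t - s) u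
  by_cases hs : s ∈ closedBall (0 : Fin r → ℝ) δ
  · rw [mem_closedBall_zero_iff] at hs
    have hts : t - s ∈ closedBall (0 : Fin r → ℝ) (2 * δ) := by
      rw [mem_closedBall_zero_iff]
      calc ‖t - s‖ ≤ ‖t‖ + ‖s‖ := norm_sub_le _ _
        _ ≤ 2 * δ := by linarith
    have h1 : ∀ v, ker χ n (ρ / 4) (s, v) • cut F c δ ρ ((t, u) - (s, v)) =
        χ s • (eta n (ρ / 4) v • F (t - s) (u - v)) := by
      intro v
      by_cases hv : v ∈ closedBall (0 : Cm n) (ρ / 4)
      · have h2 : (t, u) - (s, v) ∈ closedBall (0 : Fin r → ℝ) (2 * δ) ×ˢ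
            closedBall c (3 * ρ / 4) := by
          refine ⟨hts, ?_⟩
          rw [mem_closedBall_zero_iff] at hv
          rw [mem_ball, dist_eq_norm] at hu
          show u - v ∈ closedBall c (3 * ρ / 4)
          rw [mem_closedBall, dist_eq_norm]
          calc ‖u - v - c‖ = ‖(u - c) - v‖ := by congr 1; abel
            _ ≤ ‖u - c‖ + ‖v‖ := norm_sub_le _ _
            _ ≤ 3 * ρ / 4 := by linarith
        rw [cut, indicator_of_mem h2, ker, mul_smul]
        rfl
      · rw [ker, eta_support hσ hv]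
        simp
    simp only [h1]
    rw [integral_smul, eta_mean hσ (R := ρ / 2) (by linarith)]
    have htT : t - s ∈ ball (0 : Fin r → ℝ) T := closedBall_subset_ball hδ hts
    refine (hd _ htT).mono fun v hv => ?_
    rw [mem_ball, dist_eq_norm] at hv hu ⊢
    calc ‖v - c‖ = ‖(v - u) + (u - c)‖ := by congr 1; abel
      _ ≤ ‖v - u‖ + ‖u - c‖ := norm_add_le _ _
      _ < ρ := by linarith
  · have h1 : χ s = 0 := hχs s hs
    have h2 : ∀ v, ker χ n (ρ / 4) (s, v) • cut F c δ ρ ((t, u) - (s, v)) = 0 := by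
      intro v
      rw [ker, h1]
      simp
    simp only [h2, h1, zero_smul, integral_zero]

/-- for small times the maps are close to the identity -/
theorem near_id (hF : ContinuousOn (fun q : (Fin r → ℝ) × Cm n => F q.1 q.2)
    (ball 0 T ×ˢ ball c ρ)) (h0 : ∀ u ∈ ball c ρ, F 0 u = u) (hT : 0 < T) (hρ : 0 < ρ) {ε : ℝ}
    (hε : 0 < ε) : ∃ δ : ℝ, 0 < δ ∧ 2 * δ < T ∧
      ∀ s : Fin r → ℝ, ‖s‖ ≤ δ → ∀ v ∈ closedBall c (3 * ρ / 4), ‖F s v - v‖ < ε := by
  have h1 : ∀ᶠ s in 𝓝 (0 : Fin r → ℝ), ∀ v ∈ closedBall c (3 * ρ / 4), ‖F s v - v‖ < ε := by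
    refine (isCompact_closedBall c (3 * ρ / 4)).eventually_forall_of_forall_eventually
      fun v hv => ?_
    have hvρ : v ∈ ball c ρ := closedBall_subset_ball (by linarith) hv
    have h2 : ContinuousAt (fun q : (Fin r → ℝ) × Cm n => F q.1 q.2) (0, v) :=
      hF.continuousAt ((isOpen_ball.prod isOpen_ball).mem_nhds ⟨mem_ball_self hT, hvρ⟩)
    have h3 : ContinuousAt (fun q : (Fin r → ℝ) × Cm n => ‖F q.1 q.2 - q.2‖) (0, v) :=
      (h2.sub continuousAt_snd).norm
    have h4 : ‖F (0 : Fin r → ℝ) v - v‖ < ε := by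
      rw [h0 v hvρ, sub_self, norm_zero]
      exact hε
    exact h3.eventually_lt continuousAt_const h4
  obtain ⟨δ, hδ, h2⟩ := Metric.eventually_nhds_iff.1 h1
  refine ⟨min (δ / 2) (T / 4), by positivity, ?_, fun s hs => ?_⟩
  · have := min_le_right (δ / 2) (T / 4)
    linarith
  · apply h2
    rw [dist_zero_right]
    have := min_le_left (δ / 2) (T / 4)
    linarith

/-- an endomorphism close to the identity is invertible -/
theorem exists_equiv_of_near {E : Type*} [NormedAddCommGroup E] [NormedSpace ℝ E]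
    [FiniteDimensional ℝ E] (A : E →L[ℝ] E) (hA : ‖A - ContinuousLinearMap.id ℝ E‖ ≤ 1 / 2) :
    ∃ B : E ≃L[ℝ] E, (B : E →L[ℝ] E) = A := by
  have hinj : Function.Injective A.toLinearMap := by
    rw [← LinearMap.ker_eq_bot, LinearMap.ker_eq_bot']
    intro v hv
    have hv' : A v = 0 := hv
    have h1 : ‖(A - ContinuousLinearMap.id ℝ E) v‖ ≤ 1 / 2 * ‖v‖ :=
      ((A - ContinuousLinearMap.id ℝ E).le_opNorm v).trans (by gcongr)
    have h2 : (A - ContinuousLinearMap.id ℝ E) v = -v := by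
      show A v - v = -v
      rw [hv', zero_sub]
    rw [h2, norm_neg] at h1
    have h3 : ‖v‖ = 0 := by
      have := norm_nonneg v
      linarith
    exact norm_eq_zero.1 h3
  refine ⟨(LinearEquiv.ofInjectiveEndo A.toLinearMap hinj).toContinuousLinearEquiv, ?_⟩
  ext v
  rfl

/-- **(vi), local form.** -/
theorem local_smooth (hF : ContinuousOn (fun q : (Fin r → ℝ) × Cm n => F q.1 q.2)
    (ball 0 T ×ˢ ball c ρ)) (hd : ∀ t ∈ ball (0 : Fin r → ℝ) T, DifferentiableOn ℂ (F t) (ball c ρ))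
    (h0 : ∀ u ∈ ball c ρ, F 0 u = u)
    (hg : ∀ s ∈ ball (0 : Fin r → ℝ) T, ∀ t ∈ ball (0 : Fin r → ℝ) T, s + t ∈ ball (0 : Fin r → ℝ) T →
      ∀ u ∈ ball c ρ, F t u ∈ ball c ρ → F s (F t u) = F (s + t) u) (hT : 0 < T) (hρ : 0 < ρ) :
    ContDiffAt ℝ ∞ (fun q : (Fin r → ℝ) × Cm n => F q.1 q.2) (0, c) := by
  obtain ⟨δ, hδ, hδT, hnear⟩ := near_id hF h0 hT hρ (ε := ρ / 8) (by positivity)
  -- the bump function
  let β : ContDiffBump (0 : Fin r → ℝ) := ⟨δ / 2, δ, by positivity, by linarith⟩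
  let χ : (Fin r → ℝ) → ℝ := β.normed volume
  have hχ : ContDiff ℝ ∞ χ := β.contDiff_normed
  have hχ1 : ∫ s, χ s = 1 := β.integral_normed
  have hχ0 : ∀ s, 0 ≤ χ s := fun s => β.nonneg_normed s
  have hχs : ∀ s, s ∉ closedBall (0 : Fin r → ℝ) δ → χ s = 0 := by
    intro s hs
    have h1 : tsupport χ = closedBall (0 : Fin r → ℝ) δ := β.tsupport_normed_eq
    rw [← h1] at hs
    exact image_eq_zero_of_notMem_tsupport hs
  have hχc : HasCompactSupport χ := β.hasCompactSupport_normed
  have hχi : Integrable χ volume := hχ.continuous.integrable_of_hasCompactSupport hχc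
  set G : (Fin r → ℝ) × Cm n → Cm n :=
    ker χ n (ρ / 4) ⋆[ContinuousLinearMap.lsmul ℝ ℝ, volume] cut F c δ ρ with hG
  have hGs : ContDiff ℝ ∞ G := by
    have h1 : HasCompactSupport (ker χ n (ρ / 4)) := ker_hasCompactSupport hχs (by positivity)
    exact h1.contDiff_convolution_left (ContinuousLinearMap.lsmul ℝ ℝ) (ker_contDiff hχ _)
      (integrable_cut hF hδT hρ).locallyIntegrable
  have hGe : ∀ t : Fin r → ℝ, ‖t‖ ≤ δ → ∀ u ∈ ball c (ρ / 2), G (t, u) = ∫ s, χ s • F (t - s) u :=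
    fun t ht u hu => conv_eq hF hd hδT hρ hχ hχs ht hu
  have hsmall : ∀ s, χ s ≠ 0 → ‖s‖ ≤ δ := by
    intro s hs
    by_contra h
    exact hs (hχs s (by rwa [mem_closedBall_zero_iff]))
  set Φ : Cm n → Cm n := fun w => G (0, w) with hΦ
  have hΦs : ContDiff ℝ ∞ Φ := hGs.comp (contDiff_const.prodMk contDiff_id)
  have hΦe : ∀ u ∈ ball c (ρ / 2), Φ u = ∫ s, χ s • F (-s) u := by
    intro u hu
    have h1 := hGe 0 (by simpa using hδ.le) u hu
    simpa using h1
  -- the main identity
  have hmain : ∀ t : Fin r → ℝ, ‖t‖ ≤ δ → ∀ u ∈ ball c (ρ / 2), F t u ∈ ball c (ρ / 2) →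
      Φ (F t u) = G (t, u) := by
    intro t ht u hu hFu
    rw [hΦe _ hFu, hGe t ht u hu]
    refine integral_congr_ae (Eventually.of_forall fun s => ?_)
    show χ s • F (-s) (F t u) = χ s • F (t - s) u
    by_cases hs : χ s = 0
    · rw [hs, zero_smul, zero_smul]
    · have h1 := hsmall s hs
      have h2 : -s + t ∈ ball (0 : Fin r → ℝ) T := by
        rw [mem_ball_zero_iff]
        calc ‖-s + t‖ ≤ ‖-s‖ + ‖t‖ := norm_add_le _ _
          _ ≤ δ + δ := by rw [norm_neg]; exact add_le_add h1 ht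
          _ < T := by linarith
      have h3 := hg (-s) (by rw [mem_ball_zero_iff, norm_neg]; linarith) t
        (by rw [mem_ball_zero_iff]; linarith) h2 u (ball_subset_ball (by linarith) hu)
        (ball_subset_ball (by linarith) hFu)
      rw [h3, neg_add_eq_sub]
  -- integrability
  have hint : ∀ u ∈ ball c (ρ / 2), Integrable (fun s => χ s • F (-s) u) volume := by
    intro u hu
    have h1 : ContinuousOn (fun s : Fin r → ℝ => χ s • F (-s) u) (closedBall 0 δ) := by
      refine hχ.continuous.continuousOn.smul ?_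
      refine hF.comp (f := fun s : Fin r → ℝ => (-s, u)) (by fun_prop) fun s hs => ?_
      rw [mem_closedBall_zero_iff] at hs
      refine ⟨?_, ball_subset_ball (by linarith) hu⟩
      show -s ∈ ball (0 : Fin r → ℝ) T
      rw [mem_ball_zero_iff, norm_neg]
      linarith
    have h2 := h1.integrableOn_compact (μ := volume) (isCompact_closedBall _ _)
    rw [← integrable_indicator_iff measurableSet_closedBall] at h2
    refine h2.congr (Eventually.of_forall fun s => ?_)
    by_cases hs : s ∈ closedBall (0 : Fin r → ℝ) δ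
    · rw [indicator_of_mem hs]
    · rw [indicator_of_notMem hs]
      show (0 : Cm n) = χ s • F (-s) u
      rw [hχs s hs, zero_smul]
  -- `Φ - id` is Lipschitz
  have hlip : ∀ v ∈ ball c (ρ / 4), ∀ w ∈ ball c (ρ / 4),
      ‖(Φ v - v) - (Φ w - w)‖ ≤ 1 / 2 * ‖v - w‖ := by
    intro v hv w hw
    have hv2 : v ∈ ball c (ρ / 2) := ball_subset_ball (by linarith) hv
    have hw2 : w ∈ ball c (ρ / 2) := ball_subset_ball (by linarith) hw
    have hcv : ∀ x : Cm n, ∫ s, χ s • x = x := by
      intro x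
      rw [integral_smul_const, hχ1, one_smul]
    have e1 : (Φ v - v) - (Φ w - w) =
        ∫ s, χ s • ((F (-s) v - v) - (F (-s) w - w)) := by
      have i1 := hint v hv2
      have i2 := hint w hw2
      have i3 : Integrable (fun s => χ s • v) volume := hχi.smul_const v
      have i4 : Integrable (fun s => χ s • w) volume := hχi.smul_const w
      have j1 : ∫ s, (χ s • F (-s) v - χ s • v) = Φ v - v := by
        rw [integral_sub i1 i3, hcv v, ← hΦe v hv2]
      have j2 : ∫ s, (χ s • F (-s) w - χ s • w) = Φ w - w := by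
        rw [integral_sub i2 i4, hcv w, ← hΦe w hw2]
      have j3 := integral_sub (i1.sub i3) (i2.sub i4)
      simp only [Pi.sub_apply] at j3
      rw [← j1, ← j2, ← j3]
      refine integral_congr_ae (Eventually.of_forall fun s => ?_)
      simp only [smul_sub]
    rw [e1]
    have hb : ∀ s, ‖χ s • ((F (-s) v - v) - (F (-s) w - w))‖ ≤ χ s * (1 / 2 * ‖v - w‖) := by
      intro s
      rw [norm_smul, Real.norm_of_nonneg (hχ0 s)]
      by_cases hs : χ s = 0
      · rw [hs, zero_mul, zero_mul]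
      · refine mul_le_mul_of_nonneg_left ?_ (hχ0 s)
        have hs1 : ‖-s‖ ≤ δ := by rw [norm_neg]; exact hsmall s hs
        have hsT : -s ∈ ball (0 : Fin r → ℝ) T := by
          rw [mem_ball_zero_iff]
          linarith
        have hdiff : DifferentiableOn ℂ (fun y => F (-s) y - y) (ball c ρ) :=
          (hd _ hsT).sub differentiableOn_id
        have hder : ∀ y ∈ ball c (ρ / 4), ‖fderiv ℂ (fun y => F (-s) y - y) y‖ ≤ 1 / 2 := by
          intro y hy
          have hsub : ball y (ρ / 4) ⊆ closedBall c (3 * ρ / 4) := by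
            intro x hx
            rw [mem_ball] at hx hy
            rw [mem_closedBall]
            calc dist x c ≤ dist x y + dist y c := dist_triangle _ _ _
              _ ≤ 3 * ρ / 4 := by linarith
          have h1 := Vale.Agent.P268.norm_fderiv_le_of_ball (f := fun y => F (-s) y - y) (x := y)
            (r := ρ / 4) (C := ρ / 8) (by positivity)
            (hdiff.mono (hsub.trans (closedBall_subset_ball (by linarith))))
            fun x hx => (hnear (-s) hs1 x (hsub hx)).le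
          refine h1.trans (le_of_eq ?_)
          field_simp
          norm_num
        have h2 := (convex_ball c (ρ / 4)).norm_image_sub_le_of_norm_fderiv_le (𝕜 := ℂ)
          (f := fun y => F (-s) y - y) (fun y hy => hdiff.differentiableAt
            (isOpen_ball.mem_nhds (ball_subset_ball (by linarith) hy))) hder hw hv
        exact h2
    calc ‖∫ s, χ s • ((F (-s) v - v) - (F (-s) w - w))‖
        ≤ ∫ s, χ s * (1 / 2 * ‖v - w‖) :=
          norm_integral_le_of_norm_le (hχi.mul_const _) (Eventually.of_forall hb)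
      _ = 1 / 2 * ‖v - w‖ := by rw [integral_mul_const, hχ1, one_mul]
  -- the derivative of `Φ` at `c`
  have hΦd : DifferentiableAt ℝ Φ c := (hΦs.differentiable (by simp)) c
  have hA : ‖fderiv ℝ Φ c - ContinuousLinearMap.id ℝ (Cm n)‖ ≤ 1 / 2 := by
    have h1 : HasFDerivAt (fun v => Φ v - v) (fderiv ℝ Φ c - ContinuousLinearMap.id ℝ (Cm n)) c :=
      hΦd.hasFDerivAt.sub (hasFDerivAt_id c)
    refine h1.le_of_lip' (by norm_num) ?_
    filter_upwards [ball_mem_nhds c (show 0 < ρ / 4 by positivity)] with v hv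
    exact hlip v hv c (mem_ball_self (by positivity))
  obtain ⟨B, hB⟩ := exists_equiv_of_near _ hA
  have hBd : HasFDerivAt Φ (B : Cm n →L[ℝ] Cm n) c := by
    rw [hB]
    exact hΦd.hasFDerivAt
  have hΦc : ContDiffAt ℝ ∞ Φ c := hΦs.contDiffAt
  have hne : (∞ : WithTop ℕ∞) ≠ 0 := by simp
  have hΨ := hΦc.to_localInverse hBd hne
  have hleft := (hΦc.hasStrictFDerivAt' hBd hne).eventually_left_inverse
  -- conclusion
  have hc0 : F 0 c = c := h0 c (mem_ball_self hρ)
  have hcont : ContinuousAt (fun q : (Fin r → ℝ) × Cm n => F q.1 q.2) (0, c) :=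
    hF.continuousAt ((isOpen_ball.prod isOpen_ball).mem_nhds ⟨mem_ball_self hT, mem_ball_self hρ⟩)
  have hG0 : G (0, c) = Φ c := rfl
  have hcomp : ContDiffAt ℝ ∞ (fun q : (Fin r → ℝ) × Cm n => hΦc.localInverse hBd hne (G q)) (0, c) := by
    refine ContDiffAt.comp (g := hΦc.localInverse hBd hne) (f := G) (0, c) ?_ hGs.contDiffAt
    rw [hG0]
    exact hΨ
  refine hcomp.congr_of_eventuallyEq ?_
  have ht0 : Tendsto (fun q : (Fin r → ℝ) × Cm n => F q.1 q.2) (𝓝 (0, c)) (𝓝 c) := by
    have := hcont.tendsto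
    simpa only [hc0] using this
  have e1 := ht0.eventually hleft
  have e2 := ht0.eventually (ball_mem_nhds c (show 0 < ρ / 2 by positivity))
  have e3 : ∀ᶠ q : (Fin r → ℝ) × Cm n in 𝓝 (0, c), ‖q.1‖ ≤ δ := by
    have h1 : ∀ᶠ t in 𝓝 (0 : Fin r → ℝ), ‖t‖ ≤ δ := by
      filter_upwards [closedBall_mem_nhds (0 : Fin r → ℝ) hδ] with t ht
      rwa [mem_closedBall_zero_iff] at ht
    exact (continuous_fst.tendsto ((0 : Fin r → ℝ), c)).eventually h1
  have e4 : ∀ᶠ q : (Fin r → ℝ) × Cm n in 𝓝 (0, c), q.2 ∈ ball c (ρ / 2) :=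
    (continuous_snd.tendsto ((0 : Fin r → ℝ), c)).eventually
      (ball_mem_nhds c (show 0 < ρ / 2 by positivity))
  filter_upwards [e1, e2, e3, e4] with q h1 h2 h3 h4
  show F q.1 q.2 = hΦc.localInverse hBd hne (G q)
  have h5 := hmain q.1 h3 q.2 h4 h2
  rw [← h5]
  exact h1.symm

end core

/-- **(vi)**: a continuous action of `ℝ^r` on a complex manifold by holomorphic maps is jointly
smooth. -/
theorem smooth_of_cont {r n : ℕ} {Z : Type*} [TopologicalSpace Z] [ChartedSpace (Cm n) Z]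
    [IsManifold 𝓘(ℂ, Cm n) ω Z] (a : (Fin r → ℝ) → Z → Z) (zero : ∀ z, a 0 z = z)
    (add : ∀ s t z, a (s + t) z = a s (a t z))
    (cont : Continuous fun q : (Fin r → ℝ) × Z => a q.1 q.2)
    (hol : ∀ t, ContMDiff 𝓘(ℂ, Cm n) 𝓘(ℂ, Cm n) ω (a t)) (t : Fin r → ℝ) (z : Z)
    (e e' : Chart n Z) (he : At e z) (he' : At e' (a t z)) :
    ContDiffAt ℝ ∞ (fun q : (Fin r → ℝ) × Cm n => e' (a q.1 (e.symm q.2))) (t, e z) := by
  set y := a t z with hy
  have he0 : At e' (a 0 y) := by rw [zero]; exact he'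
  obtain ⟨W, hWo, hW, ρ, hρ, hρt, hs⟩ := exists_window cont he' he0
  obtain ⟨T, hT, hTW⟩ := Metric.isOpen_iff.1 hWo 0 hW
  have hloc : ContDiffAt ℝ ∞ (fun q : (Fin r → ℝ) × Cm n => e' (a q.1 (e'.symm q.2)))
      (0, e' y) := by
    refine local_smooth (F := fun s u => e' (a s (e'.symm u))) (T := T) (ρ := ρ) ?_ ?_ ?_ ?_ hT hρ
    · rintro ⟨s, u⟩ ⟨hs1, hu1⟩
      have h0 : ContinuousAt (fun q : (Fin r → ℝ) × Cm n => e'.symm q.2) (s, u) :=
        ContinuousAt.comp (g := e'.symm) (f := fun q : (Fin r → ℝ) × Cm n => q.2)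
          (e'.continuousAt_symm (hρt hu1)) continuousAt_snd
      have h2 : ContinuousAt (fun q : (Fin r → ℝ) × Cm n => a q.1 (e'.symm q.2)) (s, u) :=
        ContinuousAt.comp (g := fun q : (Fin r → ℝ) × Z => a q.1 q.2)
          (f := fun q : (Fin r → ℝ) × Cm n => (q.1, e'.symm q.2)) cont.continuousAt
          (continuousAt_fst.prodMk h0)
      exact (ContinuousAt.comp (g := e') (f := fun q : (Fin r → ℝ) × Cm n => a q.1 (e'.symm q.2))
        (e'.continuousAt (hs s (hTW hs1) u hu1)) h2).continuousWithinAt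
    · intro s hs1 u hu1
      have h1 : At e' (e'.symm u) := At.of_target he'.1 (hρt hu1)
      have h2 : At e' (a s (e'.symm u)) := ⟨he'.1, hs s (hTW hs1) u hu1⟩
      have h3 := (read (hol s) h1 h2).differentiableAt (by simp)
      rw [e'.right_inv (hρt hu1)] at h3
      exact h3.differentiableWithinAt
    · intro u hu1
      show e' (a 0 (e'.symm u)) = u
      rw [zero, e'.right_inv (hρt hu1)]
    · intro s _ s' hs' _ u hu1 _
      show e' (a s (e'.symm (e' (a s' (e'.symm u))))) = e' (a (s + s') (e'.symm u))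
      rw [e'.left_inv (hs s' (hTW hs') u hu1), add]
  -- reduction to the time `0`
  have h1 : ContDiffAt ℝ ∞ (fun q : (Fin r → ℝ) × Cm n => e' (a t (e.symm q.2))) (t, e z) := by
    have h2 : ContDiffAt ℝ ∞ (fun u => e' (a t (e.symm u))) (e z) :=
      ((read (hol t) he he').restrict_scalars ℝ).of_le (by exact le_top)
    exact ContDiffAt.comp (g := fun u => e' (a t (e.symm u)))
      (f := fun q : (Fin r → ℝ) × Cm n => q.2) (t, e z) h2 contDiffAt_snd
  have h2 : ContDiffAt ℝ ∞ (fun q : (Fin r → ℝ) × Cm n => (q.1 - t, e' (a t (e.symm q.2))))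
      (t, e z) := (contDiffAt_fst.sub contDiffAt_const).prodMk h1
  have h3 : ContDiffAt ℝ ∞ (fun q : (Fin r → ℝ) × Cm n =>
      e' (a (q.1 - t) (e'.symm (e' (a t (e.symm q.2)))))) (t, e z) := by
    refine ContDiffAt.comp (g := fun q : (Fin r → ℝ) × Cm n => e' (a q.1 (e'.symm q.2)))
      (f := fun q : (Fin r → ℝ) × Cm n => (q.1 - t, e' (a t (e.symm q.2)))) (t, e z) ?_ h2
    simp only [sub_self]
    rw [he.left_inv]
    exact hloc
  refine h3.congr_of_eventuallyEq ?_
  have h4 : ContinuousAt (fun q : (Fin r → ℝ) × Cm n => a t (e.symm q.2)) (t, e z) := by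
    have h5 : ContinuousAt (fun u => a t (e.symm u)) (e z) :=
      (hol t).continuous.continuousAt.comp (e.continuousAt_symm he.mem_target)
    exact ContinuousAt.comp (g := fun u => a t (e.symm u))
      (f := fun q : (Fin r → ℝ) × Cm n => q.2) h5 continuousAt_snd
  have h5 : ∀ᶠ q : (Fin r → ℝ) × Cm n in 𝓝 (t, e z), a t (e.symm q.2) ∈ e'.source := by
    refine h4.eventually (e'.open_source.mem_nhds ?_)
    show a t (e.symm (e z)) ∈ e'.source
    rw [he.left_inv]
    exact he'.2
  filter_upwards [h5] with q hq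
  rw [e'.left_inv hq, ← add, sub_add_cancel]

end Vale.Agent.P299.H800.D5

namespace Vale.Agent.P299.H800.D5

open Vale.Agent.P299.D Vale.Agent.P272.K
open scoped Manifold ContDiff

/-- a torus action by holomorphic isometries from a continuous action -/
noncomputable def mkTorusAct {r n : ℕ} {Z : Type} [TopologicalSpace Z] [ChartedSpace (Cm n) Z]
    [IsManifold 𝓘(ℂ, Cm n) ω Z] {w : FormM n Z} (a : (Fin r → ℝ) → Z → Z)
    (zero : ∀ z, a 0 z = z) (add : ∀ s t z, a (s + t) z = a s (a t z))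
    (per : ∀ (k : Fin r → ℤ) z, a (fun i => (k i : ℝ)) z = z)
    (cont : Continuous fun q : (Fin r → ℝ) × Z => a q.1 q.2)
    (hol : ∀ t, ContMDiff 𝓘(ℂ, Cm n) 𝓘(ℂ, Cm n) ω (a t))
    (iso : ∀ t e z, At e z → pullM (a t) w e (e z) = w e (e z)) : TorusAct r n Z w where
  a := a
  zero := zero
  add := add
  per := per
  cont := cont
  hol := hol
  iso := iso
  smooth := smooth_of_cont a zero add cont hol

end Vale.Agent.P299.H800.D5
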