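import Vale.Agent.P299.H723.D.Stmt
import Vale.Agent.P250.H3.Lim
import Vale.Agent.P268.Hol

/-!
# P299, D5 (v): limits of holomorphic maps and of holomorphic isometries
-/

open scoped Manifold ContDiff ComplexOrder Topology
open Vale.Agent.P272.K Vale.Agent.P299.D Filter Set Metric

noncomputable section

namespace Vale.Agent.P299.H800.D5

section read

variable {n : ℕ} {Z : Type*} [TopologicalSpace Z] [ChartedSpace (Cm n) Z]
  [IsManifold 𝓘(ℂ, Cm n) ω Z]

/-- a holomorphic map read in charts -/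
theorem read {f : Z → Z} (hf : ContMDiff 𝓘(ℂ, Cm n) 𝓘(ℂ, Cm n) ω f) {e e' : Chart n Z} {z : Z}
    (h : At e z) (h' : At e' (f z)) :
    ContDiffAt ℂ ω (fun u => e' (f (e.symm u))) (e z) := by
  rw [← contMDiffAt_iff_contDiffAt]
  have h3 : ContMDiffAt 𝓘(ℂ, Cm n) 𝓘(ℂ, Cm n) ω (fun z => f (e.symm z)) (e z) :=
    (hf (e.symm (e z))).comp (e z) (chart_symm_contMDiffAt h.1 h.mem_target)
  refine ContMDiffAt.comp (e z) (g := e') ?_ h3
  rw [h.left_inv]
  exact chart_contMDiffAt h'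

/-- a continuous map which is holomorphic in charts is holomorphic -/
theorem of_read {f : Z → Z} (hc : Continuous f)
    (h : ∀ z, ∃ e e' : Chart n Z, At e z ∧ At e' (f z) ∧
      ContDiffAt ℂ ω (fun u => e' (f (e.symm u))) (e z)) :
    ContMDiff 𝓘(ℂ, Cm n) 𝓘(ℂ, Cm n) ω f := by
  intro z
  obtain ⟨e, e', he, he', hd⟩ := h z
  have h1 : ContMDiffAt 𝓘(ℂ, Cm n) 𝓘(ℂ, Cm n) ω (fun y => e' (f (e.symm (e y)))) z :=
    ContMDiffAt.comp z (g := fun u => e' (f (e.symm u)))
      (contMDiffAt_iff_contDiffAt.2 hd) (chart_contMDiffAt he)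
  have h2 : ContMDiffAt 𝓘(ℂ, Cm n) 𝓘(ℂ, Cm n) ω
      (fun y => e'.symm (e' (f (e.symm (e y))))) z := by
    refine ContMDiffAt.comp z (g := e'.symm) ?_ h1
    rw [he.left_inv]
    exact chart_symm_contMDiffAt he'.1 he'.mem_target
  refine h2.congr_of_eventuallyEq ?_
  filter_upwards [e.open_source.mem_nhds he.2,
    hc.continuousAt.preimage_mem_nhds (e'.open_source.mem_nhds he'.2)] with y hy hy'
  rw [e.left_inv hy, e'.left_inv hy']

/-- `jacF` and a change of the chart of the target -/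
theorem jacF_target {f : Z → Z} (hf : ContMDiff 𝓘(ℂ, Cm n) 𝓘(ℂ, Cm n) ω f)
    {e e' e'' : Chart n Z} {z : Z} (h : At e z) (h' : At e' (f z)) (h'' : At e'' (f z)) :
    jacF f e e'' z = jacM e' e'' (f z) * jacF f e e' z := by
  have h1 : (fun u => e'' (f (e.symm u))) =ᶠ[𝓝 (e z)]
      fun u => e'' (e'.symm (e' (f (e.symm u)))) := by
    have hc : ContinuousAt (fun u => f (e.symm u)) (e z) :=
      hf.continuous.continuousAt.comp (e.continuousAt_symm h.mem_target)
    have h2 : ∀ᶠ u in 𝓝 (e z), f (e.symm u) ∈ e'.source := by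
      refine hc.eventually (e'.open_source.mem_nhds ?_)
      show f (e.symm (e z)) ∈ e'.source
      rw [h.left_inv]
      exact h'.2
    filter_upwards [h2] with u hu
    rw [e'.left_inv hu]
  have h2 : jacF f e e'' z = jmat (fun u => e'' (f (e.symm u))) (e z) := rfl
  have h3 : jacF f e e' z = jmat (fun u => e' (f (e.symm u))) (e z) := rfl
  have h4 : e' (f (e.symm (e z))) = e' (f z) := by rw [h.left_inv]
  rw [h2, h3, jmat_congr h1]
  have h5 := jmat_comp (τ := fun u => e' (f (e.symm u))) (σ := fun u => e'' (e'.symm u))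
    (z := e z) (by rw [h4]; exact transition_differentiableAt h' h'')
    ((read hf h h').differentiableAt (by simp))
  rw [h5, h4]
  rfl

/-- the pull back of a form computed in any chart of the target -/
theorem pull_chart {f : Z → Z} (hf : ContMDiff 𝓘(ℂ, Cm n) 𝓘(ℂ, Cm n) ω f) {w : FormM n Z}
    (hw : IsForm w) {e e' : Chart n Z} {z : Z} (h : At e z) (h' : At e' (f z)) :
    pullM f w e (e z) = (jacF f e e' z).transpose * w e' (e' (f z)) *
      (jacF f e e' z).map (starRingEnd ℂ) := by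
  unfold pullM
  rw [h.left_inv]
  have h'' : At (chartAt (Cm n) (f z)) (f z) := ⟨chart_mem_atlas _ _, mem_chart_source _ _⟩
  rw [jacF_target hf h h' h'', hw e' (chartAt (Cm n) (f z)) (f z) h' h'', Matrix.transpose_mul,
    Matrix.map_mul]
  simp only [Matrix.mul_assoc]

end read

section lim

variable {n : ℕ} {Z : Type*} [TopologicalSpace Z] [ChartedSpace (Cm n) Z]
  {K : Type*} [TopologicalSpace K] {f : K → Z → Z}

/-- the family `f` read in charts near a point -/
theorem exists_window (hf : Continuous fun q : K × Z => f q.1 q.2) {k₀ : K} {z₀ : Z}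
    {e e' : Chart n Z} (he : At e z₀) (he' : At e' (f k₀ z₀)) :
    ∃ W : Set K, IsOpen W ∧ k₀ ∈ W ∧ ∃ r : ℝ, 0 < r ∧ ball (e z₀) r ⊆ e.target ∧
      ∀ k ∈ W, ∀ u ∈ ball (e z₀) r, f k (e.symm u) ∈ e'.source := by
  have h1 : ContinuousAt (fun q : K × Cm n => f q.1 (e.symm q.2)) (k₀, e z₀) := by
    have h2 : ContinuousAt (fun q : K × Cm n => e.symm q.2) (k₀, e z₀) :=
      ContinuousAt.comp (g := e.symm) (f := fun q : K × Cm n => q.2)
        (e.continuousAt_symm he.mem_target) continuousAt_snd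
    exact ContinuousAt.comp (g := fun q : K × Z => f q.1 q.2)
      (f := fun q : K × Cm n => (q.1, e.symm q.2)) hf.continuousAt (continuousAt_fst.prodMk h2)
  have h2 : ∀ᶠ q in 𝓝 (k₀, e z₀), f q.1 (e.symm q.2) ∈ e'.source := by
    refine h1.eventually (e'.open_source.mem_nhds ?_)
    show f k₀ (e.symm (e z₀)) ∈ e'.source
    rw [he.left_inv]
    exact he'.2
  have h3 : ∀ᶠ q : K × Cm n in 𝓝 (k₀, e z₀), q.2 ∈ e.target :=
    continuousAt_snd.eventually (e.open_target.mem_nhds he.mem_target)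
  rw [nhds_prod_eq] at h2 h3
  obtain ⟨pa, hpa, pb, hpb, hab⟩ := (eventually_prod_iff.1 (h2.and h3))
  obtain ⟨W, hWp, hWo, hW⟩ := eventually_nhds_iff.1 hpa
  obtain ⟨r, hr, hrb⟩ := Metric.eventually_nhds_iff_ball.1 hpb
  exact ⟨W, hWo, hW, r, hr, fun u hu => (hab (hWp k₀ hW) (hrb u hu)).2,
    fun k hk u hu => (hab (hWp k hk) (hrb u hu)).1⟩

/-- local uniform convergence of the family read in charts -/
theorem tendsto_window (hf : Continuous fun q : K × Z => f q.1 q.2) {k₀ : K} {e e' : Chart n Z}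
    {W : Set K} (hk₀ : k₀ ∈ W) {c : Cm n} {r : ℝ} (hr : ball c r ⊆ e.target)
    (hs : ∀ k ∈ W, ∀ u ∈ ball c r, f k (e.symm u) ∈ e'.source) :
    TendstoLocallyUniformlyOn (fun k u => e' (f k (e.symm u))) (fun u => e' (f k₀ (e.symm u)))
      (𝓝 k₀) (ball c r) := by
  rw [Metric.tendstoLocallyUniformlyOn_iff]
  intro ε hε u hu
  have h1 : ContinuousAt (fun q : K × Cm n => e' (f q.1 (e.symm q.2))) (k₀, u) := by
    have h0 : ContinuousAt (fun q : K × Cm n => e.symm q.2) (k₀, u) :=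
      ContinuousAt.comp (g := e.symm) (f := fun q : K × Cm n => q.2)
        (e.continuousAt_symm (hr hu)) continuousAt_snd
    have h2 : ContinuousAt (fun q : K × Cm n => f q.1 (e.symm q.2)) (k₀, u) :=
      ContinuousAt.comp (g := fun q : K × Z => f q.1 q.2)
        (f := fun q : K × Cm n => (q.1, e.symm q.2)) hf.continuousAt (continuousAt_fst.prodMk h0)
    exact ContinuousAt.comp (g := e') (f := fun q : K × Cm n => f q.1 (e.symm q.2))
      (e'.continuousAt (hs k₀ hk₀ u hu)) h2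
  have h2 : ∀ᶠ q in 𝓝 (k₀, u), dist (e' (f q.1 (e.symm q.2))) (e' (f k₀ (e.symm u))) < ε / 2 :=
    Metric.tendsto_nhds.1 h1 (ε / 2) (by positivity)
  rw [nhds_prod_eq] at h2
  obtain ⟨pa, hpa, pb, hpb, hab⟩ := eventually_prod_iff.1 h2
  refine ⟨{v | pb v}, mem_nhdsWithin_of_mem_nhds hpb, ?_⟩
  filter_upwards [hpa] with k hk v hv
  have h3 := hab hk hv
  have h4 := hab hpa.self_of_nhds hv
  calc dist (e' (f k₀ (e.symm v))) (e' (f k (e.symm v)))
      ≤ dist (e' (f k₀ (e.symm v))) (e' (f k₀ (e.symm u))) +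
        dist (e' (f k₀ (e.symm u))) (e' (f k (e.symm v))) := dist_triangle _ _ _
    _ < ε / 2 + ε / 2 := by
        rw [dist_comm (e' (f k₀ (e.symm u)))]
        exact add_lt_add h4 h3
    _ = ε := by ring

/-- **(v), local form**: near `z₀` the limit is holomorphic and the derivatives converge. -/
theorem local_limit [IsManifold 𝓘(ℂ, Cm n) ω Z] (hf : Continuous fun q : K × Z => f q.1 q.2)
    {S : Set K} (hS : Dense S) (h : ∀ k ∈ S, ContMDiff 𝓘(ℂ, Cm n) 𝓘(ℂ, Cm n) ω (f k)) {k₀ : K}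
    {z₀ : Z} {e e' : Chart n Z} (he : At e z₀) (he' : At e' (f k₀ z₀)) :
    ContDiffAt ℂ ω (fun u => e' (f k₀ (e.symm u))) (e z₀) ∧
      Tendsto (fun k => fderiv ℂ (fun u => e' (f k (e.symm u))) (e z₀)) (𝓝[S] k₀)
        (𝓝 (fderiv ℂ (fun u => e' (f k₀ (e.symm u))) (e z₀))) := by
  obtain ⟨W, hWo, hW, r, hr, hrt, hs⟩ := exists_window hf he he'
  have hl := tendsto_window (e := e) (e' := e') hf hW hrt hs
  let ι := ↥(S ∩ W)
  let l : Filter ι := comap Subtype.val (𝓝 k₀)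
  have hcl : k₀ ∈ closure (S ∩ W) := by
    rw [inter_comm]
    exact hS.open_subset_closure_inter hWo hW
  have hne : l.NeBot := mem_closure_iff_comap_neBot.1 hcl
  have hF : ∀ i : ι, DifferentiableOn ℂ (fun u => e' (f i.1 (e.symm u))) (ball (e z₀) r) := by
    intro i u hu
    have h1 : At e (e.symm u) := At.of_target he.1 (hrt hu)
    have h2 : At e' (f i.1 (e.symm u)) := ⟨he'.1, hs i.1 i.2.2 u hu⟩
    have h3 := (read (h i.1 i.2.1) h1 h2).differentiableAt (by simp)
    rw [e.right_inv (hrt hu)] at h3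
    exact h3.differentiableWithinAt
  have hl' : TendstoLocallyUniformlyOn (fun (i : ι) u => e' (f i.1 (e.symm u)))
      (fun u => e' (f k₀ (e.symm u))) l (ball (e z₀) r) := by
    intro s hs u hu
    obtain ⟨t, ht, h3⟩ := hl s hs u hu
    exact ⟨t, ht, preimage_mem_comap h3⟩
  have hd := Vale.Agent.P250.H3.holo_of_tendstoLocallyUniformlyOn isOpen_ball hF hl'
  have ha : AnalyticAt ℂ (fun u => e' (f k₀ (e.symm u))) (e z₀) :=
    Vale.Agent.P268.analyticAt_of_differentiableOn isOpen_ball hd (mem_ball_self hr)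
  refine ⟨ha.contDiffAt, ?_⟩
  obtain ⟨ρ, hρ, hρr, hunif⟩ := Vale.Agent.P250.H3.exists_ball_unif isOpen_ball hl'
    (mem_ball_self hr)
  have h4 := (Vale.Agent.P250.H3.tendstoUniformlyOn_fderiv hρ (fun i => (hF i).mono hρr)
    hunif).2.tendsto_at (mem_ball_self hρ)
  have h5 : 𝓝[S ∩ W] k₀ = 𝓝[S] k₀ := nhdsWithin_inter_of_mem' (mem_nhdsWithin_of_mem_nhds
    (hWo.mem_nhds hW))
  have h6 : 𝓝[S ∩ W] k₀ = map (Subtype.val : ι → K) l := (map_comap_setCoe_val (𝓝 k₀) (S ∩ W)).symm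
  rw [← h5, h6]
  exact tendsto_map'_iff.2 h4

/-- **(v)**: limits of holomorphic maps are holomorphic. -/
theorem closure_hol [IsManifold 𝓘(ℂ, Cm n) ω Z] (hf : Continuous fun q : K × Z => f q.1 q.2)
    {S : Set K} (hS : Dense S) (h : ∀ k ∈ S, ContMDiff 𝓘(ℂ, Cm n) 𝓘(ℂ, Cm n) ω (f k)) (k : K) :
    ContMDiff 𝓘(ℂ, Cm n) 𝓘(ℂ, Cm n) ω (f k) := by
  refine of_read (hf.comp (Continuous.prodMk_right k)) fun z => ?_
  refine ⟨chartAt (Cm n) z, chartAt (Cm n) (f k z), ⟨chart_mem_atlas _ _, mem_chart_source _ _⟩,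
    ⟨chart_mem_atlas _ _, mem_chart_source _ _⟩, ?_⟩
  exact (local_limit hf hS h ⟨chart_mem_atlas _ _, mem_chart_source _ _⟩
    ⟨chart_mem_atlas _ _, mem_chart_source _ _⟩).1

/-- **(v)**: limits of holomorphic isometries are isometries. -/
theorem closure_iso [IsManifold 𝓘(ℂ, Cm n) ω Z] (hf : Continuous fun q : K × Z => f q.1 q.2)
    {S : Set K} (hS : Dense S) (h : ∀ k ∈ S, ContMDiff 𝓘(ℂ, Cm n) 𝓘(ℂ, Cm n) ω (f k))
    {w : FormM n Z} (hw : IsHermitian w)
    (hi : ∀ k ∈ S, ∀ (e : Chart n Z) z, At e z → pullM (f k) w e (e z) = w e (e z)) (k₀ : K)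
    (e : Chart n Z) (z₀ : Z) (he : At e z₀) : pullM (f k₀) w e (e z₀) = w e (e z₀) := by
  set e' := chartAt (Cm n) (f k₀ z₀) with hee
  have he' : At e' (f k₀ z₀) := ⟨chart_mem_atlas _ _, mem_chart_source _ _⟩
  obtain ⟨hd, hl⟩ := local_limit hf hS h he he'
  have hhol := closure_hol hf hS h
  have hne : (𝓝[S] k₀).NeBot := mem_closure_iff_nhdsWithin_neBot.1 (hS k₀)
  -- the points `f k z₀` tend to `f k₀ z₀`
  have hz : Tendsto (fun k => f k z₀) (𝓝[S] k₀) (𝓝 (f k₀ z₀)) :=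
    ((hf.comp (Continuous.prodMk_left z₀)).tendsto k₀).mono_left nhdsWithin_le_nhds
  have hev : ∀ᶠ k in 𝓝[S] k₀, At e' (f k z₀) := by
    filter_upwards [hz.eventually (e'.open_source.mem_nhds he'.2)] with k hk
    exact ⟨he'.1, hk⟩
  -- convergence of the Jacobian matrices
  have hJ : Tendsto (fun k => jacF (f k) e e' z₀) (𝓝[S] k₀) (𝓝 (jacF (f k₀) e e' z₀)) := by
    refine tendsto_pi_nhds.2 fun p => tendsto_pi_nhds.2 fun i => ?_
    have h1 : ∀ k, At e' (f k z₀) → jacF (f k) e e' z₀ p i =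
        fderiv ℂ (fun u => e' (f k (e.symm u))) (e z₀) (Pi.single i 1) p := fun k hk =>
      jmat_apply ((read (hhol k) he hk).differentiableAt (by simp)) p i
    rw [h1 k₀ he']
    have h2 : Tendsto (fun k => fderiv ℂ (fun u => e' (f k (e.symm u))) (e z₀) (Pi.single i 1) p)
        (𝓝[S] k₀) (𝓝 (fderiv ℂ (fun u => e' (f k₀ (e.symm u))) (e z₀) (Pi.single i 1) p)) := by
      have h3 : Continuous fun L : Cm n →L[ℂ] Cm n => L (Pi.single i 1) p := by fun_prop
      exact (h3.tendsto _).comp hl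
    refine h2.congr' ?_
    filter_upwards [hev] with k hk
    exact (h1 k hk).symm
  -- convergence of the metric
  have hW : Tendsto (fun k => w e' (e' (f k z₀))) (𝓝[S] k₀) (𝓝 (w e' (e' (f k₀ z₀)))) := by
    refine tendsto_pi_nhds.2 fun p => tendsto_pi_nhds.2 fun i => ?_
    have h1 : ContinuousAt (fun u => w e' u p i) (e' (f k₀ z₀)) :=
      (hw.smooth e' _ he' p i).continuousAt
    have h2 : Tendsto (fun k => e' (f k z₀)) (𝓝[S] k₀) (𝓝 (e' (f k₀ z₀))) :=
      (e'.continuousAt he'.2).tendsto.comp hz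
    exact h1.tendsto.comp h2
  have hc : Continuous fun q : Matrix (Fin n) (Fin n) ℂ × Matrix (Fin n) (Fin n) ℂ =>
      q.1.transpose * q.2 * q.1.map (starRingEnd ℂ) := by
    refine Continuous.matrix_mul (Continuous.matrix_mul ?_ continuous_snd) ?_
    · exact continuous_fst.matrix_transpose
    · exact continuous_fst.matrix_map Complex.continuous_conj
  have hlim := (hc.tendsto (jacF (f k₀) e e' z₀, w e' (e' (f k₀ z₀)))).comp (hJ.prodMk_nhds hW)
  have hlim' : Tendsto (fun _ : K => w e (e z₀)) (𝓝[S] k₀)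
      (𝓝 ((jacF (f k₀) e e' z₀).transpose * w e' (e' (f k₀ z₀)) *
        (jacF (f k₀) e e' z₀).map (starRingEnd ℂ))) := by
    refine hlim.congr' ?_
    filter_upwards [hev, self_mem_nhdsWithin] with k hk hkS
    show (jacF (f k) e e' z₀).transpose * w e' (e' (f k z₀)) *
      (jacF (f k) e e' z₀).map (starRingEnd ℂ) = w e (e z₀)
    rw [← pull_chart (hhol k) hw.isForm he hk, hi k hkS e z₀ he]
  rw [pull_chart (hhol k₀) hw.isForm he he']
  exact tendsto_nhds_unique hlim' tendsto_const_nhds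

end lim

end Vale.Agent.P299.H800.D5
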